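import Vale.Agent.P221.H598.VD

/-!
# P221, part T: (V) for the sets `{0, …, m-1}` of relations, and `SpecVan` without hypotheses
-/

open MvPolynomial

namespace Vale.Agent.P221.T

section

variable {p n : ℕ}

theorem weight_sV (m : Fin (n + 1) →₀ ℕ) :
    (Finsupp.weight (fun a : Fin (n + 1) => sV p a)) m
      = 2 * (((Finsupp.weight (wt p n)) m).1 - ((Finsupp.weight (wt p n)) m).2) ∧
    (Finsupp.weight (fun _ : Fin (n + 1) => (1 : ℤ))) m = ((Finsupp.weight (wt p n)) m).2 := by
  have h : ∀ {M : Type} [AddCommMonoid M] (f : Fin (n + 1) → M) (x : Fin (n + 1) →₀ ℕ),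
      (Finsupp.weight f) x = ∑ a : Fin (n + 1), x a • f a := by
    intro M _ f x
    rw [Finsupp.weight_apply, Finsupp.sum_fintype]
    intro i
    rw [zero_smul]
  rw [h, h, h]
  simp only [wt, Prod.fst_sum, Prod.snd_sum, Prod.smul_mk, nsmul_eq_mul, mul_one, sV]
  refine ⟨?_, trivial⟩
  rw [← Finset.sum_sub_distrib, Finset.mul_sum]
  refine Finset.sum_congr rfl fun a _ => ?_
  ring

theorem mem_grR_iff {k s : ℤ} {f : RR p n} : f ∈ grR p n k s ↔
    IsWeightedHomogeneous (fun a : Fin (n + 1) => sV p a) f k ∧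
      IsWeightedHomogeneous (fun _ : Fin (n + 1) => (1 : ℤ)) f s := Iff.rfl

theorem WH_of_gr {k s : ℤ} {f : RR p n} (h : f ∈ grR p n (2 * k) s) : WH p n (k + s) s f := by
  rw [mem_grR_iff] at h
  intro m hm
  have h1 := h.1 hm
  have h2 := h.2 hm
  rw [(weight_sV m).1] at h1
  rw [(weight_sV m).2] at h2
  ext
  · dsimp only
    linarith
  · exact h2

theorem gr_of_WH {k s : ℤ} {f : RR p n} (h : WH p n (k + s) s f) : f ∈ grR p n (2 * k) s := by
  rw [mem_grR_iff]
  refine ⟨?_, ?_⟩
  · intro m hm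
    have h1 := h hm
    rw [(weight_sV m).1, h1]
    dsimp only
    ring
  · intro m hm
    have h1 := h hm
    rw [(weight_sV m).2, h1]

theorem gr_odd {k s : ℤ} {f : RR p n} (h : f ∈ grR p n (2 * k + 1) s) : f = 0 := by
  rw [mem_grR_iff] at h
  ext m
  rw [coeff_zero]
  by_contra hm
  have h1 := h.1 hm
  rw [(weight_sV m).1] at h1
  omega

theorem gr_neg {k s : ℤ} {f : RR p n} (h : f ∈ grR p n k s) (hs : s < 0) : f = 0 := by
  rw [mem_grR_iff] at h
  ext m
  rw [coeff_zero]
  by_contra hm
  have h1 := h.2 hm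
  have h2 : 0 ≤ (Finsupp.weight (fun _ : Fin (n + 1) => (1 : ℤ))) m := by
    rw [Finsupp.weight_apply, Finsupp.sum_fintype]
    · exact Finset.sum_nonneg fun i _ => by
        rw [nsmul_eq_mul, mul_one]
        exact Nat.cast_nonneg _
    · intro i
      rw [zero_smul]
  omega

theorem dT_eq (E : ℕ →₀ ℕ) : dT p E = 2 * ((wT p E : ℤ) - dg E) := by
  induction E using Finsupp.induction_linear with
  | zero => simp [dT, wT, dg]
  | add E E' h h' =>
    rw [dT_add, wT_add, dg_add, h, h']
    push_cast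
    ring
  | single j c =>
    rw [dT_single, wT_single, dg_single]
    unfold sV
    push_cast
    ring

theorem dd_eq (l : ℕ) : dd p n l = 2 * ((p : ℤ) ^ (n + l + 1) - 1) := by
  unfold dd sV
  have : n + 1 + l = n + l + 1 := by omega
  rw [this]

/-- the restriction of a family to one weight commutes with the operators -/
theorem DD_restr {N : Type} [AddCommGroup N] [Module (RR p n) N] (ψ : ℕ → Fnl N) (w i l : ℕ)
    (E : ℕ →₀ ℕ) :
    DD p n i (fun E => if wT p E + p ^ (n + l + 1) = w then ψ l E else 0) E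
      = if wT p E + p ^ (n + i + 1) + p ^ (n + l + 1) = w then DD p n i (ψ l) E else 0 := by
  simp only [DD]
  split_ifs with hw
  · refine Finset.sum_congr rfl fun a _ => ?_
    rw [wT_shift (a : ℕ) i (Nat.lt_succ_iff.1 a.2), if_pos hw]
  · refine Finset.sum_eq_zero fun a _ => ?_
    rw [wT_shift (a : ℕ) i (Nat.lt_succ_iff.1 a.2), if_neg hw, smul_zero]

/-- **(V)** for initial segments -/
theorem van_R (hp : 2 ≤ p) (m : ℕ) {d : ℤ} (hd : 4 - 2 * (p : ℤ) ^ (n + 1) ≤ d) :
    Van p n {l | l < m} (grR p n) d := by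
  intro k hk s ψ hψ hc
  -- the trivial cases
  have triv : (∀ l < m, ψ l = 0) →
      ∃ φ : Fnl (RR p n), InF p (grR p n) k s φ ∧ ∀ l ∈ {l | l < m}, DD p n l φ = ψ l := by
    intro h
    exact ⟨0, InF.zero, fun l hl => by rw [DD_zero, h l hl]⟩
  rcases Int.even_or_odd' k with ⟨k', hk' | hk'⟩
  swap
  · refine triv fun l hl => ?_
    funext E
    have h1 := hψ l hl E
    rw [hk', dd_eq, dT_eq] at h1
    have h2 : 2 * k' + 1 + 2 * ((p : ℤ) ^ (n + l + 1) - 1) + 2 * ((wT p E : ℤ) - dg E)
        = 2 * (k' + ((p : ℤ) ^ (n + l + 1) - 1) + ((wT p E : ℤ) - dg E)) + 1 := by ring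
    rw [h2] at h1
    exact gr_odd h1
  rcases lt_or_ge (s + 1) 0 with hs | hs
  · refine triv fun l hl => ?_
    funext E
    exact gr_neg (hψ l hl E) hs
  -- the main case
  have key : ∀ w : ℕ, ∃ φ : Fnl (RR p n), Typ p n w (k' + w + s) s φ ∧ ∀ l < m, DD p n l φ =
      fun E => if wT p E + p ^ (n + l + 1) = w then ψ l E else 0 := by
    intro w
    rcases lt_or_ge w (p ^ (n + 1)) with hw | hw
    · refine ⟨0, Typ.zero, fun l _ => ?_⟩
      rw [DD_zero]
      funext E
      rw [if_neg]
      · rfl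
      · have h1 : p ^ (n + 1) ≤ p ^ (n + l + 1) := Nat.pow_le_pow_right (by omega) (by omega)
        omega
    · have h1 : Bd p n m w ≤ k' + w + s := by
        have h2 := Bd_le hp n m w hw
        have h3 : (4 : ℤ) - 2 * (p : ℤ) ^ (n + 1) ≤ 2 * k' := by
          rw [← hk']
          exact hd.trans hk
        linarith
      refine vp_all hp n m w _ s h1 (fun l E => if wT p E + p ^ (n + l + 1) = w then ψ l E else 0)
        ?_ ?_
      · intro l hl E
        dsimp only
        split_ifs with h2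
        · refine ⟨fun h3 => absurd ?_ h3, ?_⟩
          · rw [← h2]
            push_cast
            ring
          · have h3 := hψ l hl E
            rw [hk', dd_eq, dT_eq] at h3
            have h4 : 2 * k' + 2 * ((p : ℤ) ^ (n + l + 1) - 1) + 2 * ((wT p E : ℤ) - dg E)
                = 2 * (k' + ((p : ℤ) ^ (n + l + 1) - 1) + ((wT p E : ℤ) - dg E)) := by ring
            rw [h4] at h3
            have h5 := WH_of_gr h3
            have h6 : k' + ((p : ℤ) ^ (n + l + 1) - 1) + ((wT p E : ℤ) - dg E) + (s + 1)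
                = k' + w + s - dg E := by
              rw [← h2]
              push_cast
              ring
            rw [h6] at h5
            exact h5
        · exact ⟨fun _ => rfl, WH.zero⟩
      · intro i hi l hl
        funext E
        rw [DD_restr, DD_restr, hc i hi l hl]
        have h2 : wT p E + p ^ (n + i + 1) + p ^ (n + l + 1)
            = wT p E + p ^ (n + l + 1) + p ^ (n + i + 1) := by ring
        rw [h2]
  choose φ hφ hφ' using key
  refine ⟨fun E => φ (wT p E) E, ?_, ?_⟩
  · intro E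
    have h1 := (hφ (wT p E) E).2
    have h2 : k' + (wT p E : ℤ) + s - dg E = (k' + ((wT p E : ℤ) - dg E)) + s := by ring
    rw [h2] at h1
    have h3 := gr_of_WH h1
    have h4 : k + dT p E = 2 * (k' + ((wT p E : ℤ) - dg E)) := by
      rw [hk', dT_eq]
      ring
    rw [h4]
    exact h3
  · intro l hl
    funext E
    have h1 := congrFun (hφ' (wT p E + p ^ (n + l + 1)) l hl) E
    rw [if_pos rfl] at h1
    rw [← h1]
    simp only [DD]
    refine Finset.sum_congr rfl fun a _ => ?_
    rw [wT_shift (a : ℕ) l (Nat.lt_succ_iff.1 a.2)]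

/-- **`SpecVan`**, without hypotheses -/
theorem specVan_all (hp : 2 ≤ p) : SpecVan p n := by
  intro d i N _ _ gr _ hQ
  have h := van_of_QQ hp (fun m _ hd => van_R (n := n) hp m hd) d i N gr hQ
  exact ⟨h, van_univ hp h⟩

end

end Vale.Agent.P221.T
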