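import Vale.Agent.P221.H598.Van
import Mathlib.Algebra.MvPolynomial.Equiv
import Mathlib.Algebra.Polynomial.Div
import Mathlib.Tactic.NormNum

/-!
# P221, part T, proof of (V): the rings `𝔽_p[v_0, …, v_n]`, reduction modulo `v_0`
-/

open MvPolynomial

namespace Vale.Agent.P221.T

variable (p : ℕ)

/-- the bidegree of `v_a`: `δ = p^a`, filtration `1` -/
def wt (n : ℕ) (a : Fin (n + 1)) : ℤ × ℤ := ((p : ℤ) ^ (a : ℕ), 1)

/-- bihomogeneous elements -/
def WH (n : ℕ) (δ s : ℤ) (f : RR p n) : Prop := IsWeightedHomogeneous (wt p n) f (δ, s)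

variable {p}

theorem WH.zero {n : ℕ} {δ s : ℤ} : WH p n δ s 0 := isWeightedHomogeneous_zero _ _ _

theorem WH.add {n : ℕ} {δ s : ℤ} {f g : RR p n} (hf : WH p n δ s f) (hg : WH p n δ s g) :
    WH p n δ s (f + g) := IsWeightedHomogeneous.add hf hg

theorem WH.sub {n : ℕ} {δ s : ℤ} {f g : RR p n} (hf : WH p n δ s f) (hg : WH p n δ s g) :
    WH p n δ s (f - g) := IsWeightedHomogeneous.sub hf hg

theorem WH.X_smul {n : ℕ} {δ s : ℤ} {f : RR p n} (hf : WH p n δ s f) (a : Fin (n + 1)) :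
    WH p n (δ + (p : ℤ) ^ (a : ℕ)) (s + 1) ((X a : RR p n) • f) := by
  have h := (isWeightedHomogeneous_X (ZMod p) (wt p n) a).mul hf
  have h2 : wt p n a + (δ, s) = (δ + (p : ℤ) ^ (a : ℕ), s + 1) := by
    unfold wt
    ext
    · exact add_comm _ _
    · exact add_comm _ _
  unfold WH
  rw [h2] at h
  exact h

theorem WH.sum {n : ℕ} {δ s : ℤ} {ι : Type} (S : Finset ι) (f : ι → RR p n)
    (h : ∀ i ∈ S, WH p n δ s (f i)) : WH p n δ s (∑ i ∈ S, f i) :=
  IsWeightedHomogeneous.sum _ _ _ h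

theorem X_cancel {n : ℕ} {a : Fin (n + 1)} {f g : RR p n} (h : (X a : RR p n) • f = (X a : RR p n) • g) :
    f = g := by
  ext m
  have h1 := congrArg (coeff (Finsupp.single a 1 + m)) h
  rw [smul_eq_mul, smul_eq_mul, coeff_X_mul, coeff_X_mul] at h1
  exact h1

theorem WH.of_X {n : ℕ} {δ s : ℤ} {f : RR p n} {a : Fin (n + 1)}
    (h : WH p n (δ + (p : ℤ) ^ (a : ℕ)) (s + 1) ((X a : RR p n) • f)) : WH p n δ s f := by
  intro m hm
  have h1 : coeff (Finsupp.single a 1 + m) ((X a : RR p n) • f) ≠ 0 := by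
    rw [smul_eq_mul, coeff_X_mul]
    exact hm
  have h2 := h h1
  rw [map_add, Finsupp.weight_single, one_smul] at h2
  have h3 : wt p n a + (δ, s) = (δ + (p : ℤ) ^ (a : ℕ), s + 1) := by
    unfold wt
    ext
    · exact add_comm _ _
    · exact add_comm _ _
  rw [← h3] at h2
  exact add_left_cancel h2

/-- `v_0 ↦ 0`, `v_(a+1) ↦ v_a` -/
noncomputable def ev (p n : ℕ) : RR p (n + 1) →+* RR p n :=
  Polynomial.constantCoeff.comp (finSuccEquiv (ZMod p) (n + 1)).toRingEquiv.toRingHom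

/-- `v_a ↦ v_(a+1)` -/
noncomputable def inc (p n : ℕ) (f : RR p n) : RR p (n + 1) :=
  (finSuccEquiv (ZMod p) (n + 1)).symm (Polynomial.C f)

theorem ev_apply {n : ℕ} (f : RR p (n + 1)) :
    ev p n f = (finSuccEquiv (ZMod p) (n + 1) f).coeff 0 := rfl

theorem ev_inc {n : ℕ} (f : RR p n) : ev p n (inc p n f) = f := by
  rw [ev_apply, inc, AlgEquiv.apply_symm_apply, Polynomial.coeff_C_zero]

theorem ev_X_zero {n : ℕ} : ev p n (X 0) = 0 := by
  rw [ev_apply, finSuccEquiv_X_zero, Polynomial.coeff_X_zero]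

theorem ev_X_succ {n : ℕ} (a : Fin (n + 1)) : ev p n (X a.succ) = X a := by
  rw [ev_apply, finSuccEquiv_X_succ, Polynomial.coeff_C_zero]

theorem ev_coeff {n : ℕ} (f : RR p (n + 1)) (m : Fin (n + 1) →₀ ℕ) :
    coeff m (ev p n f) = coeff (m.cons 0) f := by
  rw [ev_apply, finSuccEquiv_coeff_coeff]

theorem ev_eq_zero {n : ℕ} {f : RR p (n + 1)} (h : ev p n f = 0) :
    ∃ g : RR p (n + 1), f = (X 0 : RR p (n + 1)) • g := by
  rw [ev_apply] at h
  obtain ⟨q, hq⟩ := Polynomial.X_dvd_iff.2 h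
  refine ⟨(finSuccEquiv (ZMod p) (n + 1)).symm q, ?_⟩
  apply (finSuccEquiv (ZMod p) (n + 1)).injective
  rw [smul_eq_mul, map_mul, finSuccEquiv_X_zero, AlgEquiv.apply_symm_apply, hq]

theorem weight_cons {n : ℕ} (m : Fin (n + 1) →₀ ℕ) (i : ℕ) :
    (Finsupp.weight (wt p (n + 1))) (m.cons i)
      = (i + p * ((Finsupp.weight (wt p n)) m).1, i + ((Finsupp.weight (wt p n)) m).2) := by
  have h : ∀ {k : ℕ} (x : Fin (k + 1) →₀ ℕ), (Finsupp.weight (wt p k)) x
      = ∑ a : Fin (k + 1), x a • wt p k a := by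
    intro k x
    rw [Finsupp.weight_apply, Finsupp.sum_fintype]
    intro i
    rw [zero_smul]
  rw [h, h, Fin.sum_univ_succ]
  simp only [Finsupp.cons_zero, Finsupp.cons_succ]
  ext
  · simp only [wt, Prod.fst_add, Prod.fst_sum, Prod.smul_mk, Fin.val_zero, pow_zero, Fin.val_succ,
      nsmul_eq_mul, mul_one]
    rw [Finset.mul_sum]
    congr 1
    refine Finset.sum_congr rfl fun a _ => ?_
    rw [pow_succ]
    ring
  · simp only [wt, Prod.snd_add, Prod.snd_sum, Prod.smul_mk, nsmul_eq_mul, mul_one]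

theorem WH.ev {n : ℕ} {δ s : ℤ} {f : RR p (n + 1)} (hp : 1 ≤ p) (h : WH p (n + 1) (p * δ) s f) :
    WH p n δ s (ev p n f) := by
  intro m hm
  rw [ev_coeff] at hm
  have h1 := h hm
  rw [weight_cons] at h1
  have h2 := congrArg Prod.fst h1
  have h3 := congrArg Prod.snd h1
  simp only [Nat.cast_zero, zero_add] at h2 h3
  have h4 : (p : ℤ) ≠ 0 := by exact_mod_cast (by omega : p ≠ 0)
  ext
  · exact mul_left_cancel₀ h4 h2
  · exact h3

theorem WH.ev_zero {n : ℕ} {δ s : ℤ} {f : RR p (n + 1)} (h : WH p (n + 1) δ s f)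
    (hδ : ¬ (p : ℤ) ∣ δ) : Vale.Agent.P221.T.ev p n f = 0 := by
  ext m
  rw [ev_coeff, coeff_zero]
  by_contra hm
  have h1 := h hm
  rw [weight_cons] at h1
  have h2 := congrArg Prod.fst h1
  simp only [Nat.cast_zero, zero_add] at h2
  exact hδ ⟨_, h2.symm⟩

theorem WH.inc {n : ℕ} {δ s : ℤ} {f : RR p n} (h : WH p n δ s f) :
    WH p (n + 1) (p * δ) s (inc p n f) := by
  intro m hm
  have h0 : m = (m.tail).cons (m 0) := (Finsupp.cons_tail m).symm
  rw [h0, ← finSuccEquiv_coeff_coeff, Vale.Agent.P221.T.inc, AlgEquiv.apply_symm_apply,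
    Polynomial.coeff_C] at hm
  have h1 : m 0 = 0 := by
    by_contra h1
    rw [if_neg h1, coeff_zero] at hm
    exact hm rfl
  rw [if_pos h1] at hm
  have h2 := h hm
  rw [h0, weight_cons, h1, h2]
  simp

end Vale.Agent.P221.T
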