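import Vale.Agent.P221.H598.VA

/-!
# P221, part T, proof of (V): operators on functionals
-/

open MvPolynomial

namespace Vale.Agent.P221.T

section general

variable (p n : ℕ) {N : Type} [AddCommGroup N] [Module (RR p n) N]

theorem DD_shift (l : ℕ) (F : ℕ →₀ ℕ) (ζ : Fnl N) :
    DD p n l (fun E => ζ (E + F)) = fun E => DD p n l ζ (E + F) := by
  funext E
  simp only [DD]
  refine Finset.sum_congr rfl fun a _ => ?_
  rw [add_right_comm]

theorem DD_smul (l : ℕ) (x : RR p n) (ζ : Fnl N) :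
    DD p n l (fun E => x • ζ E) = fun E => x • DD p n l ζ E := by
  funext E
  simp only [DD, Finset.smul_sum]
  refine Finset.sum_congr rfl fun a _ => ?_
  rw [smul_comm]

/-- the terms with `a ≥ 1` of the operator of `r_m` -/
noncomputable def RO (m : ℕ) (ζ : Fnl N) : Fnl N := fun E =>
  ∑ a : Fin n, (X a.succ : RR p n) • ζ (E + Finsupp.single (n + m - (a.succ : ℕ)) (p ^ (a.succ : ℕ)))

theorem DD_split (m : ℕ) (ζ : Fnl N) (E : ℕ →₀ ℕ) :
    DD p n m ζ E = (X 0 : RR p n) • ζ (E + Finsupp.single (n + m) 1) + RO p n m ζ E := by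
  unfold DD RO
  rw [Fin.sum_univ_succ]
  simp only [Fin.val_zero, pow_zero, Nat.sub_zero]

theorem RO_eq (m : ℕ) (ζ : Fnl N) :
    RO p n m ζ = DD p n m ζ - fun E => (X 0 : RR p n) • ζ (E + Finsupp.single (n + m) 1) := by
  funext E
  rw [Pi.sub_apply, DD_split, add_sub_cancel_left]

theorem DD_RO (l m : ℕ) (ζ : Fnl N) (h : DD p n l ζ = 0) : DD p n l (RO p n m ζ) = 0 := by
  rw [RO_eq, DD_sub, DD_comm, h, DD_zero, DD_smul, DD_shift, h]
  funext E
  simp

variable {p n}

/-- the dual shift -/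
noncomputable def UU (i : ℕ) (ζ : Fnl N) : Fnl N := fun E =>
  if E i = 0 then 0 else ζ (E - Finsupp.single i 1)

theorem UU_shift (i : ℕ) (ζ : Fnl N) (E : ℕ →₀ ℕ) : UU i ζ (E + Finsupp.single i 1) = ζ E := by
  unfold UU
  rw [if_neg, add_tsub_cancel_right]
  rw [Finsupp.add_apply, Finsupp.single_eq_same]
  omega

theorem single_le {i : ℕ} {E : ℕ →₀ ℕ} (h : E i ≠ 0) : Finsupp.single i 1 ≤ E := by
  intro j
  by_cases hj : j = i
  · subst hj
    rw [Finsupp.single_eq_same]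
    omega
  · rw [Finsupp.single_eq_of_ne hj]
    exact Nat.zero_le _

theorem UU_other {i j : ℕ} (hij : j ≠ i) (c : ℕ) (ζ : Fnl N) (E : ℕ →₀ ℕ) :
    UU i ζ (E + Finsupp.single j c) =
      if E i = 0 then 0 else ζ (E - Finsupp.single i 1 + Finsupp.single j c) := by
  unfold UU
  have h1 : (E + Finsupp.single j c) i = E i := by
    rw [Finsupp.add_apply, Finsupp.single_eq_of_ne hij.symm, add_zero]
  rw [h1]
  by_cases h : E i = 0
  · rw [if_pos h, if_pos h]
  · rw [if_neg h, if_neg h, tsub_add_eq_add_tsub (single_le h)]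

theorem DD_UU {i l : ℕ} (h : n + l < i) (ζ : Fnl N) : DD p n l (UU i ζ) = UU i (DD p n l ζ) := by
  funext E
  simp only [DD]
  have h1 : ∀ a : Fin (n + 1), UU i ζ (E + Finsupp.single (n + l - a) (p ^ (a : ℕ))) =
      if E i = 0 then 0 else
        ζ (E - Finsupp.single i 1 + Finsupp.single (n + l - a) (p ^ (a : ℕ))) := by
    intro a
    exact UU_other (by omega) _ _ _
  simp only [h1]
  by_cases h2 : E i = 0
  · simp only [if_pos h2, smul_zero, Finset.sum_const_zero, UU]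
  · simp only [if_neg h2, UU, DD]

/-- `ζ` is supported on monomials with exponent of `t_(i+1)` at least `c` -/
def Slot (i c : ℕ) (ζ : Fnl N) : Prop := ∀ E, E i < c → ζ E = 0

theorem Slot.UU {i c : ℕ} {ζ : Fnl N} (h : Slot i c ζ) : Slot i (c + 1) (UU i ζ) := by
  intro E hE
  unfold Vale.Agent.P221.T.UU
  by_cases h2 : E i = 0
  · rw [if_pos h2]
  · rw [if_neg h2]
    apply h
    rw [Finsupp.tsub_apply, Finsupp.single_eq_same]
    omega

theorem Slot.RO {m c : ℕ} {ζ : Fnl N} (h : Slot (n + m) c ζ) : Slot (n + m) c (RO p n m ζ) := by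
  intro E hE
  unfold Vale.Agent.P221.T.RO
  refine Finset.sum_eq_zero fun a _ => ?_
  rw [h, smul_zero]
  rw [Finsupp.add_apply, Finsupp.single_eq_of_ne, add_zero]
  · exact hE
  · have h2 := a.2
    have h3 : (a.succ : ℕ) = a + 1 := Fin.val_succ a
    omega

end general

/-! ### Types -/

section types

variable (p : ℕ)

/-- the number of letters of a `T`-monomial -/
noncomputable def dg (E : ℕ →₀ ℕ) : ℕ := Finsupp.degree E

theorem dg_add (E E' : ℕ →₀ ℕ) : dg (E + E') = dg E + dg E' := map_add _ _ _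

theorem dg_single (j c : ℕ) : dg (Finsupp.single j c) = c := Finsupp.degree_single _ _

theorem wT_add (E E' : ℕ →₀ ℕ) : wT p (E + E') = wT p E + wT p E' := map_add _ _ _

theorem wT_single (j c : ℕ) : wT p (Finsupp.single j c) = c * p ^ (j + 1) := by
  unfold wT
  rw [Finsupp.weight_single, smul_eq_mul]

/-- functionals of weight `w`, `δ`-degree `d`, filtration `s` -/
def Typ (n : ℕ) (w d s : ℤ) (φ : Fnl (RR p n)) : Prop :=
  ∀ E, ((wT p E : ℤ) ≠ w → φ E = 0) ∧ WH p n (d - dg E) s (φ E)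

variable {p} {n : ℕ}

theorem Typ.zero {w d s : ℤ} : Typ p n w d s 0 := fun _ => ⟨fun _ => rfl, WH.zero⟩

theorem Typ.add {w d s : ℤ} {φ φ' : Fnl (RR p n)} (h : Typ p n w d s φ) (h' : Typ p n w d s φ') :
    Typ p n w d s (φ + φ') := fun E =>
  ⟨fun hw => by rw [Pi.add_apply, (h E).1 hw, (h' E).1 hw, add_zero], (h E).2.add (h' E).2⟩

theorem Typ.sub {w d s : ℤ} {φ φ' : Fnl (RR p n)} (h : Typ p n w d s φ) (h' : Typ p n w d s φ') :
    Typ p n w d s (φ - φ') := fun E =>
  ⟨fun hw => by rw [Pi.sub_apply, (h E).1 hw, (h' E).1 hw, sub_zero], (h E).2.sub (h' E).2⟩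

theorem Typ.smul0 {w d s : ℤ} {φ : Fnl (RR p n)} (h : Typ p n w d s φ) :
    Typ p n w (d + 1) (s + 1) (fun E => (X 0 : RR p n) • φ E) := by
  intro E
  refine ⟨fun hw => by dsimp only; rw [(h E).1 hw, smul_zero], ?_⟩
  have h1 := (h E).2.X_smul (0 : Fin (n + 1))
  have h2 : d - dg E + (p : ℤ) ^ ((0 : Fin (n + 1)) : ℕ) = d + 1 - dg E := by
    rw [Fin.val_zero, pow_zero]
    ring
  rwa [h2] at h1

theorem Typ.of_smul0 {w d s : ℤ} {φ φ' : Fnl (RR p n)} (h : Typ p n w d s φ)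
    (h' : ∀ E, φ E = (X 0 : RR p n) • φ' E) : Typ p n w (d - 1) (s - 1) φ' := by
  intro E
  refine ⟨fun hw => ?_, ?_⟩
  · have h1 := (h E).1 hw
    rw [h' E] at h1
    exact X_cancel (h1.trans (smul_zero _).symm)
  · have h1 := (h E).2
    rw [h' E] at h1
    apply WH.of_X (a := (0 : Fin (n + 1)))
    have h2 : d - 1 - dg E + (p : ℤ) ^ ((0 : Fin (n + 1)) : ℕ) = d - dg E := by
      rw [Fin.val_zero, pow_zero]
      ring
    have h3 : s - 1 + 1 = s := by ring
    rw [h2, h3]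
    exact h1

theorem Typ.smul_pow {w : ℤ} {φ : Fnl (RR p n)} (j : ℕ) {d s : ℤ} (h : Typ p n w d s φ) :
    Typ p n w (d + j) (s + j) (fun E => (X 0 : RR p n) ^ j • φ E) := by
  induction j with
  | zero =>
    simp only [pow_zero, one_smul, Nat.cast_zero, add_zero]
    exact h
  | succ j ih =>
    have h1 := ih.smul0
    have h2 : (fun E => (X 0 : RR p n) ^ (j + 1) • φ E)
        = fun E => (X 0 : RR p n) • (X 0 : RR p n) ^ j • φ E := by
      funext E
      rw [smul_smul, pow_succ']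
    rw [h2]
    have h3 : d + ((j + 1 : ℕ) : ℤ) = d + j + 1 := by push_cast; ring
    have h4 : s + ((j + 1 : ℕ) : ℤ) = s + j + 1 := by push_cast; ring
    rw [h3, h4]
    exact h1

theorem Typ.term {w d s : ℤ} {φ : Fnl (RR p n)} (h : Typ p n w d s φ) (l : ℕ) (a : Fin (n + 1)) :
    Typ p n (w - (p : ℤ) ^ (n + l + 1)) d (s + 1)
      (fun E => (X a : RR p n) • φ (E + Finsupp.single (n + l - a) (p ^ (a : ℕ)))) := by
  intro E
  refine ⟨fun hw => ?_, ?_⟩
  · dsimp only
    rw [(h _).1, smul_zero]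
    rw [wT_shift _ _ (Nat.lt_succ_iff.1 a.2)]
    push_cast
    intro h1
    exact hw (by linarith)
  · have h1 := (h (E + Finsupp.single (n + l - a) (p ^ (a : ℕ)))).2.X_smul a
    rw [dg_add, dg_single] at h1
    have h2 : d - ((dg E + p ^ (a : ℕ) : ℕ) : ℤ) + (p : ℤ) ^ (a : ℕ) = d - dg E := by
      push_cast
      ring
    rwa [h2] at h1

theorem Typ.sum {ι : Type} {w d s : ℤ} (S : Finset ι) (φ : ι → Fnl (RR p n))
    (h : ∀ i ∈ S, Typ p n w d s (φ i)) : Typ p n w d s (fun E => ∑ i ∈ S, φ i E) := fun E =>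
  ⟨fun hw => Finset.sum_eq_zero fun i hi => (h i hi E).1 hw, WH.sum _ _ fun i hi => (h i hi E).2⟩

theorem Typ.DD {w d s : ℤ} {φ : Fnl (RR p n)} (h : Typ p n w d s φ) (l : ℕ) :
    Typ p n (w - (p : ℤ) ^ (n + l + 1)) d (s + 1) (DD p n l φ) :=
  Typ.sum Finset.univ _ fun a _ => h.term l a

theorem Typ.RO {w d s : ℤ} {φ : Fnl (RR p n)} (h : Typ p n w d s φ) (l : ℕ) :
    Typ p n (w - (p : ℤ) ^ (n + l + 1)) d (s + 1) (RO p n l φ) :=
  Typ.sum Finset.univ _ fun a _ => h.term l a.succ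

theorem Typ.UU {w d s : ℤ} {φ : Fnl (RR p n)} (h : Typ p n w d s φ) (i : ℕ) :
    Typ p n (w + (p : ℤ) ^ (i + 1)) (d + 1) s (UU i φ) := by
  intro E
  unfold Vale.Agent.P221.T.UU
  by_cases h2 : E i = 0
  · rw [if_pos h2]
    exact ⟨fun _ => rfl, WH.zero⟩
  · rw [if_neg h2]
    have h3 : E = (E - Finsupp.single i 1) + Finsupp.single i 1 :=
      (tsub_add_cancel_of_le (single_le h2)).symm
    have h4 : wT p E = wT p (E - Finsupp.single i 1) + p ^ (i + 1) := by
      conv_lhs => rw [h3]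
      rw [wT_add, wT_single, one_mul]
    have h5 : dg E = dg (E - Finsupp.single i 1) + 1 := by
      conv_lhs => rw [h3]
      rw [dg_add, dg_single]
    refine ⟨fun hw => (h _).1 ?_, ?_⟩
    · intro h6
      apply hw
      rw [h4]
      push_cast
      rw [h6]
    · have h6 := (h (E - Finsupp.single i 1)).2
      rw [h5]
      push_cast
      have h7 : d + 1 - ((dg (E - Finsupp.single i 1) : ℤ) + 1) = d - dg (E - Finsupp.single i 1) := by
        ring
      rw [h7]
      exact h6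

theorem le_wT (i : ℕ) (E : ℕ →₀ ℕ) : E i * p ^ (i + 1) ≤ wT p E := by
  have h1 : Finsupp.single i (E i) ≤ E := by
    intro j
    by_cases hj : j = i
    · subst hj
      rw [Finsupp.single_eq_same]
    · rw [Finsupp.single_eq_of_ne hj]
      exact Nat.zero_le _
  have h2 : Finsupp.single i (E i) + (E - Finsupp.single i (E i)) = E := add_tsub_cancel_of_le h1
  have h3 := congrArg (wT p) h2
  rw [wT_add, wT_single] at h3
  omega

theorem dg_le (E : ℕ →₀ ℕ) (_ : 1 ≤ p) : p * dg E ≤ wT p E := by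
  have h1 : ∀ E : ℕ →₀ ℕ, p * dg E ≤ wT p E := by
    intro E
    induction E using Finsupp.induction_linear with
    | zero => simp [dg, wT]
    | add E E' h h' =>
      rw [dg_add, wT_add, mul_add]
      exact add_le_add h h'
    | single j c =>
      rw [dg_single, wT_single, mul_comm]
      refine Nat.mul_le_mul_left c ?_
      exact Nat.le_self_pow (by omega) p
  exact h1 E

/-- the kernel of the operators `D_l`, `l < m` -/
def Kr (p n m : ℕ) (w d s : ℤ) (φ : Fnl (RR p n)) : Prop :=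
  Typ p n w d s φ ∧ ∀ l < m, DD p n l φ = 0

theorem Kr.zero {m : ℕ} {w d s : ℤ} : Kr p n m w d s 0 := ⟨Typ.zero, fun _ _ => DD_zero _ _ _⟩

theorem Kr.add {m : ℕ} {w d s : ℤ} {φ φ' : Fnl (RR p n)} (h : Kr p n m w d s φ)
    (h' : Kr p n m w d s φ') : Kr p n m w d s (φ + φ') :=
  ⟨h.1.add h'.1, fun l hl => by rw [DD_add, h.2 l hl, h'.2 l hl, add_zero]⟩

theorem Kr.sub {m : ℕ} {w d s : ℤ} {φ φ' : Fnl (RR p n)} (h : Kr p n m w d s φ)
    (h' : Kr p n m w d s φ') : Kr p n m w d s (φ - φ') :=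
  ⟨h.1.sub h'.1, fun l hl => by rw [DD_sub, h.2 l hl, h'.2 l hl, sub_zero]⟩

theorem Kr.smul_pow {m : ℕ} {w d s : ℤ} {φ : Fnl (RR p n)} (h : Kr p n m w d s φ) (j : ℕ) :
    Kr p n m w (d + j) (s + j) (fun E => (X 0 : RR p n) ^ j • φ E) :=
  ⟨h.1.smul_pow j, fun l hl => by
    rw [DD_smul, h.2 l hl]
    funext E
    simp⟩

theorem Kr.UU {m : ℕ} {w d s : ℤ} {φ : Fnl (RR p n)} (h : Kr p n m w d s φ) :
    Kr p n m (w + (p : ℤ) ^ (n + m + 1)) (d + 1) s (UU (n + m) φ) :=
  ⟨h.1.UU (n + m), fun l hl => by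
    rw [DD_UU (by omega), h.2 l hl]
    funext E
    simp [Vale.Agent.P221.T.UU]⟩

theorem Kr.RO {m : ℕ} {w d s : ℤ} {φ : Fnl (RR p n)} (h : Kr p n m w d s φ) :
    Kr p n m (w - (p : ℤ) ^ (n + m + 1)) d (s + 1) (RO p n m φ) :=
  ⟨h.1.RO m, fun l hl => DD_RO p n l m φ (h.2 l hl)⟩

/-- step 2: `v_0^j λ` is in the image when the slots are exhausted after `j` steps -/
theorem step2 (m w q : ℕ) (hq : w < (q + 1) * p ^ (n + m + 1)) (j : ℕ) :
    ∀ (c : ℕ) (d s : ℤ) (lam : Fnl (RR p n)), q ≤ j + c → Slot (n + m) c lam →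
      Kr p n m ((w : ℤ) - (p : ℤ) ^ (n + m + 1)) d (s + 1) lam →
      ∃ φ, Kr p n m w (d + j) (s + j) φ ∧ DD p n m φ = fun E => (X 0 : RR p n) ^ j • lam E := by
  induction j with
  | zero =>
    intro c d s lam hc hs hl
    refine ⟨0, Kr.zero, ?_⟩
    rw [DD_zero]
    funext E
    rw [Pi.zero_apply, pow_zero, one_smul]
    by_cases h : E (n + m) < c
    · exact (hs E h).symm
    · refine ((hl.1 E).1 ?_).symm
      intro h1
      have h2 := le_wT (p := p) (n + m) E
      have h3 : q * p ^ (n + m + 1) ≤ E (n + m) * p ^ (n + m + 1) :=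
        Nat.mul_le_mul_right _ (by omega)
      have h4 : ((wT p E + p ^ (n + m + 1) : ℕ) : ℤ) = w := by
        push_cast
        rw [h1]
        ring
      have h5 : wT p E + p ^ (n + m + 1) = w := by exact_mod_cast h4
      have h6 : (q + 1) * p ^ (n + m + 1) = q * p ^ (n + m + 1) + p ^ (n + m + 1) := by ring
      omega
  | succ j ih =>
    intro c d s lam hc hs hl
    set lam1 := UU (n + m) lam with hlam1
    have h1 : Kr p n m w (d + 1) (s + 1) lam1 := by
      have := hl.UU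
      rwa [sub_add_cancel] at this
    have h2 : Slot (n + m) (c + 1) (RO p n m lam1) := Slot.RO (Slot.UU hs)
    obtain ⟨φ', hφ', hφ''⟩ := ih (c + 1) (d + 1) (s + 1) (RO p n m lam1) (by omega) h2 h1.RO
    have h3 := h1.smul_pow j
    refine ⟨(fun E => (X 0 : RR p n) ^ j • lam1 E) - φ', ?_, ?_⟩
    · have h4 : d + ((j + 1 : ℕ) : ℤ) = d + 1 + j := by push_cast; ring
      have h5 : s + ((j + 1 : ℕ) : ℤ) = s + 1 + j := by push_cast; ring
      rw [h4, h5]
      exact h3.sub hφ'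
    · rw [DD_sub, DD_smul, hφ'']
      funext E
      rw [Pi.sub_apply, DD_split, hlam1, UU_shift, smul_add, add_sub_cancel_right, smul_smul,
        pow_succ]

end types

end Vale.Agent.P221.T
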