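import Vale.Agent.P221.H598.VB
import Mathlib.Algebra.Order.Group.Nat

/-!
# P221, part T, proof of (V): reduction modulo `v_0` and the main induction
-/

open MvPolynomial

namespace Vale.Agent.P221.T

section arith

/-- `⌊w/p⌋ + … + ⌊w/p^M⌋` -/
def cM (p M w : ℕ) : ℕ := ∑ j ∈ Finset.range M, w / p ^ (j + 1)

/-- `1 + p + … + p^n` -/
def gp (p n : ℕ) : ℕ := ∑ j ∈ Finset.range (n + 1), p ^ j

theorem cM_succ (p M w : ℕ) : cM p (M + 1) w = cM p M w + w / p ^ (M + 1) :=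
  Finset.sum_range_succ _ _

theorem cM_zero (p w : ℕ) : cM p 0 w = 0 := rfl

theorem gp_succ (p n : ℕ) : gp p (n + 1) = 1 + p * gp p n := by
  unfold gp
  rw [Finset.sum_range_succ', Finset.mul_sum, pow_zero, add_comm]
  congr 1
  refine Finset.sum_congr rfl fun i _ => ?_
  rw [pow_succ, mul_comm]

theorem gp_zero (p : ℕ) : gp p 0 = 1 := by simp [gp]

theorem cM_ineq {p : ℕ} (hp : 2 ≤ p) {w w' a b : ℕ} (hw : w = p * w' + b) (hab : p * a ≤ b) (M : ℕ) :
    p * cM p (M + 1) w' + a ≤ cM p (M + 1) w := by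
  induction M with
  | zero =>
    rw [cM_succ, cM_succ, cM_zero, cM_zero, zero_add, zero_add, zero_add, pow_one]
    have h1 : p * (w' / p) ≤ w' := Nat.mul_div_le _ _
    have h2 : w' + a ≤ w / p := by
      rw [Nat.le_div_iff_mul_le (by omega), hw]
      calc (w' + a) * p = p * w' + p * a := by ring
        _ ≤ p * w' + b := by omega
    omega
  | succ M ih =>
    rw [cM_succ p (M + 1) w, cM_succ p (M + 1) w', mul_add]
    have h1 : p * (w' / p ^ (M + 1 + 1)) ≤ w / p ^ (M + 1 + 1) := by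
      rw [Nat.le_div_iff_mul_le (by positivity)]
      have h2 : w' / p ^ (M + 1 + 1) * p ^ (M + 1 + 1) ≤ w' := Nat.div_mul_le_self _ _
      calc p * (w' / p ^ (M + 1 + 1)) * p ^ (M + 1 + 1)
          = p * (w' / p ^ (M + 1 + 1) * p ^ (M + 1 + 1)) := by ring
        _ ≤ p * w' := Nat.mul_le_mul_left _ h2
        _ ≤ w := by omega
    omega

/-- the bound -/
def Bd (p n m w : ℕ) : ℤ := (cM p (n + m) w : ℤ) - gp p n + 1

theorem Bd_succ (p n m w : ℕ) : Bd p n (m + 1) w = Bd p n m w + (w / p ^ (n + m + 1) : ℕ) := by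
  unfold Bd
  rw [← add_assoc, cM_succ]
  push_cast
  ring

/-- descent of the bound modulo `v_0` -/
theorem Bd_descent {p : ℕ} (hp : 2 ≤ p) {n m w w' a b : ℕ} {d d' : ℤ} (hw : w = p * w' + b)
    (hab : p * a ≤ b) (hd : d = p * d' + a) (h : Bd p (n + 1) m w + 1 ≤ d) :
    Bd p n (m + 1) w' ≤ d' := by
  unfold Bd at h ⊢
  have h1 := cM_ineq hp hw hab (n + m)
  have h2 : n + 1 + m = n + m + 1 := by omega
  have h3 : n + (m + 1) = n + m + 1 := by omega
  rw [h2, gp_succ] at h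
  rw [h3]
  have h4 : (p : ℤ) * cM p (n + m + 1) w' + a ≤ cM p (n + m + 1) w := by exact_mod_cast h1
  push_cast at h
  have h5 : (p : ℤ) * ((cM p (n + m + 1) w' : ℤ) - gp p n) < p * d' := by
    rw [mul_sub]
    linarith
  have h6 : (cM p (n + m + 1) w' : ℤ) - gp p n < d' :=
    lt_of_mul_lt_mul_left h5 (by positivity)
  linarith

/-- the estimate `(p - 1) c_M(w) ≤ w - 1` -/
theorem cM_le {p : ℕ} (M : ℕ) (w : ℕ) (hw : 1 ≤ w) :
    ((p : ℤ) - 1) * cM p M w + 1 ≤ w := by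
  have key : ∀ M, ((p : ℤ) - 1) * cM p M w + (w / p ^ M : ℕ) ≤ w := by
    intro M
    induction M with
    | zero => simp [cM_zero]
    | succ M ih =>
      rw [cM_succ]
      have h1 : p * (w / p ^ (M + 1)) ≤ w / p ^ M := by
        rw [pow_succ, ← Nat.div_div_eq_div_mul]
        exact Nat.mul_div_le _ _
      have h2 : (p : ℤ) * (w / p ^ (M + 1) : ℕ) ≤ (w / p ^ M : ℕ) := by exact_mod_cast h1
      rw [Nat.cast_add, mul_add, sub_mul _ _ ((w / p ^ (M + 1) : ℕ) : ℤ), one_mul]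
      linarith
  induction M with
  | zero =>
    rw [cM_zero]
    simp only [Nat.cast_zero, mul_zero, zero_add]
    exact_mod_cast hw
  | succ M ih =>
    rcases Nat.eq_zero_or_pos (w / p ^ (M + 1)) with h | h
    · rw [cM_succ, h, add_zero]
      exact ih
    · have h1 := key (M + 1)
      have h2 : (1 : ℤ) ≤ (w / p ^ (M + 1) : ℕ) := by exact_mod_cast h
      linarith

theorem gp_mul (p n : ℕ) : ((p : ℤ) - 1) * gp p n = (p : ℤ) ^ (n + 1) - 1 := by
  induction n with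
  | zero => rw [gp_zero]; simp
  | succ n ih =>
    rw [gp_succ]
    push_cast
    rw [mul_add, mul_left_comm, ih, pow_succ (p : ℤ) (n + 1)]
    ring

/-- the bound in terms of the weight -/
theorem Bd_le {p : ℕ} (hp : 2 ≤ p) (n m w : ℕ) (hw : p ^ (n + 1) ≤ w) :
    Bd p n m w ≤ (w : ℤ) + 1 - (p : ℤ) ^ (n + 1) := by
  have hp1 : 1 ≤ p ^ (n + 1) := Nat.one_le_pow _ _ (by omega)
  have h1 := cM_le (p := p) (n + m) w (by omega)
  have h2 := gp_mul p n
  have h3 : (p : ℤ) ^ (n + 1) ≤ w := by exact_mod_cast hw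
  unfold Bd
  have h4 : (1 : ℤ) ≤ (p : ℤ) - 1 := by
    have : (2 : ℤ) ≤ p := by exact_mod_cast hp
    linarith
  rcases le_or_gt ((cM p (n + m) w : ℤ) - gp p n) 0 with h | h
  · linarith
  · have h5 : (cM p (n + m) w : ℤ) - gp p n ≤ ((p : ℤ) - 1) * ((cM p (n + m) w : ℤ) - gp p n) := by
      have h6 := mul_le_mul_of_nonneg_right h4 h.le
      rwa [one_mul] at h6
    rw [mul_sub] at h5
    linarith

end arith

end Vale.Agent.P221.T
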