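import Vale.Agent.P221.H598.VC

/-!
# P221, part T, proof of (V): the main induction
-/

open MvPolynomial

namespace Vale.Agent.P221.T

section

variable (p : ℕ)

/-- vanishing in weight `w`, `δ`-degree `d`, filtration `s`, for the first `m` relations -/
def Vp (n m w : ℕ) (d s : ℤ) : Prop :=
  ∀ ψ : ℕ → Fnl (RR p n), (∀ l < m, Typ p n ((w : ℤ) - (p : ℤ) ^ (n + l + 1)) d (s + 1) (ψ l)) →
    (∀ i < m, ∀ l < m, DD p n i (ψ l) = DD p n l (ψ i)) →
    ∃ φ, Typ p n w d s φ ∧ ∀ l < m, DD p n l φ = ψ l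

/-- surjectivity of the next operator on the kernel of the first ones -/
def Sj (n m w : ℕ) (d s : ℤ) : Prop :=
  ∀ η, Kr p n m ((w : ℤ) - (p : ℤ) ^ (n + m + 1)) d (s + 1) η →
    ∃ φ, Kr p n m w d s φ ∧ DD p n m φ = η

variable {p}

theorem Vp.zero {n w : ℕ} {d s : ℤ} : Vp p n 0 w d s := fun _ _ _ =>
  ⟨0, Typ.zero, fun l hl => absurd hl (Nat.not_lt_zero l)⟩

theorem Vp.succ {n m w : ℕ} {d s : ℤ} (h : Vp p n m w d s) (hS : Sj p n m w d s) :
    Vp p n (m + 1) w d s := by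
  intro ψ hψ hc
  obtain ⟨φ₀, h0, h0'⟩ := h ψ (fun l hl => hψ l (Nat.lt_succ_of_lt hl))
    (fun i hi l hl => hc i (Nat.lt_succ_of_lt hi) l (Nat.lt_succ_of_lt hl))
  obtain ⟨φ₁, h1, h1'⟩ := hS (ψ m - DD p n m φ₀)
    ⟨(hψ m (Nat.lt_succ_self m)).sub (h0.DD m), fun l hl => by
      rw [DD_sub, hc l (Nat.lt_succ_of_lt hl) m (Nat.lt_succ_self m), DD_comm p n l m, h0' l hl,
        sub_self]⟩
  refine ⟨φ₀ + φ₁, h0.add h1.1, fun l hl => ?_⟩
  rw [DD_add]
  rcases Nat.lt_succ_iff_lt_or_eq.1 hl with h | h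
  · rw [h0' l h, h1.2 l h, add_zero]
  · rw [h, h1']
    abel

/-! ### the case `n = 0` -/

theorem div_X0 {δ s : ℤ} {f : RR p 0} (h : WH p 0 δ s f) (hδ : 1 ≤ δ) :
    ∃ g : RR p 0, f = (X 0 : RR p 0) • g := by
  have h0 : (finSuccEquiv (ZMod p) 0 f).coeff 0 = 0 := by
    ext m
    rw [finSuccEquiv_coeff_coeff, coeff_zero]
    by_contra hm
    have h1 := h hm
    have h3 : (Finsupp.weight (wt p 0)) (Finsupp.cons 0 m) = 0 := by
      rw [Finsupp.weight_apply, Finsupp.sum_fintype]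
      · rw [Fin.sum_univ_succ, Finsupp.cons_zero, zero_smul]
        simp
      · intro i
        rw [zero_smul]
    rw [h3] at h1
    have h2 := congrArg Prod.fst h1
    rw [Prod.fst_zero] at h2
    dsimp only at h2
    omega
  obtain ⟨q, hq⟩ := Polynomial.X_dvd_iff.2 h0
  refine ⟨(finSuccEquiv (ZMod p) 0).symm q, ?_⟩
  apply (finSuccEquiv (ZMod p) 0).injective
  rw [smul_eq_mul, map_mul, finSuccEquiv_X_zero, AlgEquiv.apply_symm_apply, hq]

theorem Kr.of_smul0 {n m : ℕ} {w d s : ℤ} {φ φ' : Fnl (RR p n)} (h : Kr p n m w d s φ)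
    (h' : ∀ E, φ E = (X 0 : RR p n) • φ' E) : Kr p n m w (d - 1) (s - 1) φ' := by
  refine ⟨h.1.of_smul0 h', fun l hl => ?_⟩
  funext E
  have h1 := h.2 l hl
  have h2 : φ = fun E => (X 0 : RR p n) • φ' E := funext h'
  rw [h2, DD_smul] at h1
  have h3 := congrFun h1 E
  exact X_cancel (h3.trans (smul_zero _).symm)

theorem Sj.base (hp : 2 ≤ p) {m w : ℕ} {d s : ℤ} (hd : Bd p 0 (m + 1) w ≤ d) : Sj p 0 m w d s := by
  intro η hη
  have h0 : ∀ E, ∃ g : RR p 0, η E = (X 0 : RR p 0) • g := by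
    intro E
    by_cases hw : (wT p E : ℤ) = (w : ℤ) - (p : ℤ) ^ (0 + m + 1)
    · refine div_X0 (hη.1 E).2 ?_
      have h1 := dg_le (p := p) E (by omega)
      have h2 : wT p E + p ^ (0 + m + 1) = w := by
        have : ((wT p E + p ^ (0 + m + 1) : ℕ) : ℤ) = w := by
          push_cast
          rw [hw]
          ring
        exact_mod_cast this
      have h3 : p * (dg E + 1) ≤ w := by
        have h4 : p ≤ p ^ (0 + m + 1) := Nat.le_self_pow (by omega) p
        rw [mul_add, mul_one]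
        omega
      have h5 : dg E + 1 ≤ w / p := by
        rw [Nat.le_div_iff_mul_le (by omega), mul_comm]
        exact h3
      have h6 : w / p ≤ cM p (0 + (m + 1)) w := by
        unfold cM
        have h7 : w / p ^ (0 + 1) ≤ ∑ j ∈ Finset.range (0 + (m + 1)), w / p ^ (j + 1) :=
          Finset.single_le_sum (f := fun j => w / p ^ (j + 1)) (fun _ _ => Nat.zero_le _)
            (Finset.mem_range.2 (by omega))
        rwa [zero_add, pow_one] at h7
      unfold Bd at hd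
      rw [gp_zero] at hd
      push_cast at hd
      omega
    · exact ⟨0, by rw [(hη.1 E).1 hw, smul_zero]⟩
  choose η' hη' using h0
  have h1 : Kr p 0 m ((w : ℤ) - (p : ℤ) ^ (0 + m + 1)) (d - 1) (s + 1 - 1) η' :=
    hη.of_smul0 hη'
  have h2 := h1.UU
  rw [sub_add_cancel, sub_add_cancel, add_sub_cancel_right] at h2
  refine ⟨UU (0 + m) η', h2, ?_⟩
  funext E
  rw [DD_split, UU_shift, hη' E]
  unfold RO
  simp

/-! ### exponents modulo `p` -/

/-- the quotient -/
noncomputable def eq' (p : ℕ) (E : ℕ →₀ ℕ) : ℕ →₀ ℕ := E.mapRange (· / p) (Nat.zero_div p)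

/-- the remainder -/
noncomputable def em (p : ℕ) (E : ℕ →₀ ℕ) : ℕ →₀ ℕ := E.mapRange (· % p) (Nat.zero_mod p)

theorem em_add (E : ℕ →₀ ℕ) : p • eq' p E + em p E = E := by
  ext i
  rw [Finsupp.add_apply, Finsupp.smul_apply, eq', em, Finsupp.mapRange_apply,
    Finsupp.mapRange_apply, smul_eq_mul]
  exact Nat.div_add_mod _ _

theorem em_lt (hp : 2 ≤ p) (E : ℕ →₀ ℕ) (i : ℕ) : em p E i < p := by
  rw [em, Finsupp.mapRange_apply]
  exact Nat.mod_lt _ (by omega)

theorem em_eq {E ρ : ℕ →₀ ℕ} (hρ : ∀ i, ρ i < p) : em p (p • E + ρ) = ρ := by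
  ext i
  rw [em, Finsupp.mapRange_apply, Finsupp.add_apply, Finsupp.smul_apply, smul_eq_mul,
    Nat.mul_add_mod, Nat.mod_eq_of_lt (hρ i)]

theorem eq'_eq (hp : 2 ≤ p) {E ρ : ℕ →₀ ℕ} (hρ : ∀ i, ρ i < p) : eq' p (p • E + ρ) = E := by
  ext i
  rw [eq', Finsupp.mapRange_apply, Finsupp.add_apply, Finsupp.smul_apply, smul_eq_mul,
    Nat.mul_add_div (by omega), Nat.div_eq_of_lt (hρ i), add_zero]

theorem wT_pE (E ρ : ℕ →₀ ℕ) : wT p (p • E + ρ) = p * wT p E + wT p ρ := by
  unfold wT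
  rw [map_add, map_nsmul, smul_eq_mul]

theorem dg_pE (E ρ : ℕ →₀ ℕ) : dg (p • E + ρ) = p * dg E + dg ρ := by
  unfold dg
  rw [map_add, map_nsmul, smul_eq_mul]

/-- the part of a functional with exponents `≡ ρ`, modulo `v_0` -/
noncomputable def res {n : ℕ} (ρ : ℕ →₀ ℕ) (ζ : Fnl (RR p (n + 1))) : Fnl (RR p n) := fun E =>
  ev p n (ζ (p • E + ρ))

theorem res_DD {n : ℕ} (ρ : ℕ →₀ ℕ) (l : ℕ) (ζ : Fnl (RR p (n + 1))) :
    res ρ (DD p (n + 1) l ζ) = DD p n l (res ρ ζ) := by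
  funext E
  simp only [res, DD]
  rw [map_sum, Fin.sum_univ_succ, smul_eq_mul, map_mul, ev_X_zero, zero_mul, zero_add]
  refine Finset.sum_congr rfl fun a _ => ?_
  rw [smul_eq_mul, map_mul, ev_X_succ, smul_eq_mul]
  have h1 : n + 1 + l - ((a.succ : Fin (n + 1 + 1)) : ℕ) = n + l - a := by
    rw [Fin.val_succ]
    omega
  have h2 : p • E + ρ + Finsupp.single (n + 1 + l - ((a.succ : Fin (n + 1 + 1)) : ℕ))
      (p ^ ((a.succ : Fin (n + 1 + 1)) : ℕ)) = p • (E + Finsupp.single (n + l - a) (p ^ (a : ℕ))) + ρ := by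
    rw [h1, Fin.val_succ, pow_succ, smul_add, Finsupp.smul_single, smul_eq_mul, mul_comm p]
    abel
  rw [h2]

/-- a functional from its parts -/
noncomputable def glue {n : ℕ} (κ : (ℕ →₀ ℕ) → Fnl (RR p n)) : Fnl (RR p (n + 1)) := fun E =>
  inc p n (κ (em p E) (eq' p E))

theorem res_glue (hp : 2 ≤ p) {n : ℕ} (κ : (ℕ →₀ ℕ) → Fnl (RR p n)) {ρ : ℕ →₀ ℕ}
    (hρ : ∀ i, ρ i < p) : res ρ (glue κ) = κ ρ := by
  funext E
  simp only [res, glue]
  rw [ev_inc, em_eq hρ, eq'_eq hp hρ]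

theorem ev_eq_zero_of_res (hp : 2 ≤ p) {n : ℕ} {ζ : Fnl (RR p (n + 1))}
    (h : ∀ ρ : ℕ →₀ ℕ, (∀ i, ρ i < p) → res ρ ζ = 0) (E : ℕ →₀ ℕ) : ev p n (ζ E) = 0 := by
  have h1 := congrFun (h (em p E) (em_lt hp E)) (eq' p E)
  simp only [res, em_add] at h1
  exact h1

/-- solving for one residue class -/
theorem res_solve (hp : 2 ≤ p) {n m w : ℕ} {d s : ℤ} {η : Fnl (RR p (n + 1))}
    (hη : Kr p (n + 1) m ((w : ℤ) - (p : ℤ) ^ (n + 1 + m + 1)) d (s + 1) η) (ρ : ℕ →₀ ℕ)
    (h : ∀ (w' : ℕ) (d' : ℤ), w = p * w' + wT p ρ → d = p * d' + dg ρ → Vp p n (m + 1) w' d' s) :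
    ∃ κ : Fnl (RR p n), (∀ E, ((p * wT p E + wT p ρ : ℕ) : ℤ) ≠ w → κ E = 0) ∧
      (∀ E, WH p (n + 1) (d - (p * dg E + dg ρ : ℕ)) s (inc p n (κ E))) ∧
      (∀ l < m, DD p n l κ = 0) ∧ DD p n m κ = res ρ η := by
  have hP : (p : ℤ) ^ (n + 1 + m + 1) = p * (p : ℤ) ^ (n + m + 1) := by
    rw [← pow_succ']
    congr 1
    omega
  by_cases hw : ∃ w' : ℕ, w = p * w' + wT p ρ
  · by_cases hd : ∃ d' : ℤ, d = p * d' + dg ρ
    · obtain ⟨w', hw'⟩ := hw
      obtain ⟨d', hd'⟩ := hd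
      obtain ⟨κ, hκ, hκ'⟩ := h w' d' hw' hd' (fun l => if l = m then res ρ η else 0)
        (by
          intro l hl
          by_cases hlm : l = m
          · subst hlm
            rw [if_pos rfl]
            intro E
            refine ⟨fun hE => ?_, ?_⟩
            · simp only [res]
              rw [(hη.1 _).1, map_zero]
              intro h1
              apply hE
              rw [wT_pE, hP, hw'] at h1
              push_cast at h1
              have h2 : (p : ℤ) * wT p E = p * ((w' : ℤ) - (p : ℤ) ^ (n + l + 1)) := by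
                rw [mul_sub]
                linarith
              exact mul_left_cancel₀ (by exact_mod_cast (by omega : p ≠ 0)) h2
            · simp only [res]
              refine WH.ev (by omega) ?_
              have h1 := (hη.1 (p • E + ρ)).2
              rw [dg_pE] at h1
              have h2 : (p : ℤ) * (d' - dg E) = d - ((p * dg E + dg ρ : ℕ) : ℤ) := by
                rw [hd']
                push_cast
                ring
              rw [h2]
              exact h1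
          · rw [if_neg hlm]
            exact Typ.zero)
        (by
          intro i hi l hl
          have hk : ∀ i, i < m + 1 → i ≠ m → DD p n i (res ρ η) = 0 := by
            intro i hi hi'
            rw [← res_DD, hη.2 i (by omega)]
            funext E
            simp [res]
          by_cases h1 : l = m
          · by_cases h2 : i = m
            · rw [h1, h2]
            · rw [if_pos h1, if_neg h2, DD_zero]
              exact hk i hi h2
          · by_cases h2 : i = m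
            · rw [if_neg h1, if_pos h2, DD_zero]
              exact (hk l hl h1).symm
            · rw [if_neg h1, if_neg h2, DD_zero, DD_zero])
      refine ⟨κ, fun E hE => (hκ E).1 ?_, fun E => ?_, fun l hl => ?_, ?_⟩
      · intro h1
        apply hE
        rw [hw']
        push_cast
        rw [h1]
      · have h1 := (hκ E).2.inc
        have h2 : (p : ℤ) * (d' - dg E) = d - ((p * dg E + dg ρ : ℕ) : ℤ) := by
          rw [hd']
          push_cast
          ring
        rw [h2] at h1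
        exact h1
      · have h1 := hκ' l (Nat.lt_succ_of_lt hl)
        rw [if_neg (ne_of_lt hl)] at h1
        exact h1
      · have h1 := hκ' m (Nat.lt_succ_self m)
        rw [if_pos rfl] at h1
        exact h1
    · refine ⟨0, fun _ _ => rfl, fun E => ?_, fun l _ => DD_zero _ _ _, ?_⟩
      · have : inc p n ((0 : Fnl (RR p n)) E) = 0 := by simp [inc]
        rw [this]
        exact WH.zero
      · rw [DD_zero]
        funext E
        simp only [res, Pi.zero_apply]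
        refine (WH.ev_zero (hη.1 _).2 ?_).symm
        rintro ⟨x, hx⟩
        refine hd ⟨x + dg E, ?_⟩
        rw [dg_pE] at hx
        push_cast at hx
        rw [mul_add, ← hx]
        ring
  · refine ⟨0, fun _ _ => rfl, fun E => ?_, fun l _ => DD_zero _ _ _, ?_⟩
    · have : inc p n ((0 : Fnl (RR p n)) E) = 0 := by simp [inc]
      rw [this]
      exact WH.zero
    · rw [DD_zero]
      funext E
      simp only [res, Pi.zero_apply]
      rw [(hη.1 _).1, map_zero]
      intro h1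
      refine hw ⟨wT p E + p ^ (n + m + 1), ?_⟩
      rw [wT_pE, hP] at h1
      have h2 : ((p * (wT p E + p ^ (n + m + 1)) + wT p ρ : ℕ) : ℤ) = w := by
        push_cast at h1 ⊢
        rw [mul_add]
        linarith
      exact_mod_cast h2.symm

/-- one division by `v_0` -/
theorem stepA (hp : 2 ≤ p) {n m w : ℕ} {d s : ℤ} (h1 : Vp p (n + 1) m w (d - 1) (s - 1))
    (h2 : ∀ (ρ : ℕ →₀ ℕ) (w' : ℕ) (d' : ℤ), w = p * w' + wT p ρ → d = p * d' + dg ρ →
      Vp p n (m + 1) w' d' s) {η : Fnl (RR p (n + 1))}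
    (hη : Kr p (n + 1) m ((w : ℤ) - (p : ℤ) ^ (n + 1 + m + 1)) d (s + 1) η) :
    ∃ κ η', Kr p (n + 1) m w d s κ ∧
      Kr p (n + 1) m ((w : ℤ) - (p : ℤ) ^ (n + 1 + m + 1)) (d - 1) s η' ∧
      ∀ E, η E = DD p (n + 1) m κ E + (X 0 : RR p (n + 1)) • η' E := by
  choose κ hκ1 hκ2 hκ3 hκ4 using fun ρ => res_solve hp hη ρ (h2 ρ)
  have hT : Typ p (n + 1) w d s (glue κ) := by
    intro E
    refine ⟨fun hE => ?_, ?_⟩
    · simp only [glue]
      rw [hκ1]
      · simp [inc]
      · rw [← wT_pE, em_add]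
        exact hE
    · have h3 := hκ2 (em p E) (eq' p E)
      rw [← dg_pE, em_add] at h3
      exact h3
  -- the operators `D_l` on `glue κ`
  have h3 : ∀ l < m, ∀ E, ∃ g, DD p (n + 1) l (glue κ) E = (X 0 : RR p (n + 1)) • g := by
    intro l hl E
    refine ev_eq_zero (ev_eq_zero_of_res hp (fun ρ hρ => ?_) E)
    rw [res_DD, res_glue hp κ hρ, hκ3 ρ l hl]
  have h4 : ∃ χ : ℕ → Fnl (RR p (n + 1)), ∀ l < m, ∀ E,
      DD p (n + 1) l (glue κ) E = (X 0 : RR p (n + 1)) • χ l E := by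
    have h5 : ∀ l, ∃ χ : Fnl (RR p (n + 1)), l < m → ∀ E,
        DD p (n + 1) l (glue κ) E = (X 0 : RR p (n + 1)) • χ E := by
      intro l
      by_cases hl : l < m
      · choose χ hχ using h3 l hl
        exact ⟨χ, fun _ => hχ⟩
      · exact ⟨0, fun h => absurd h hl⟩
    choose χ hχ using h5
    exact ⟨χ, hχ⟩
  obtain ⟨χ, hχ⟩ := h4
  obtain ⟨ξ, hξ, hξ'⟩ := h1 χ
    (by
      intro l hl
      have h5 := (hT.DD l).of_smul0 (hχ l hl)
      rw [add_sub_cancel_right] at h5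
      rw [sub_add_cancel]
      exact h5)
    (by
      intro i hi l hl
      funext E
      apply X_cancel (a := (0 : Fin (n + 1 + 1)))
      have h5 : ∀ i < m, ∀ l < m, ∀ E, (X 0 : RR p (n + 1)) • DD p (n + 1) i (χ l) E
          = DD p (n + 1) i (DD p (n + 1) l (glue κ)) E := by
        intro i _ l hl E
        have h6 : DD p (n + 1) l (glue κ) = fun E => (X 0 : RR p (n + 1)) • χ l E :=
          funext (hχ l hl)
        rw [h6, DD_smul]
      rw [h5 i hi l hl, h5 l hl i hi, DD_comm])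
  have hκ : Kr p (n + 1) m w d s (glue κ - fun E => (X 0 : RR p (n + 1)) • ξ E) := by
    refine ⟨hT.sub ?_, fun l hl => ?_⟩
    · have h5 := hξ.smul0
      rw [sub_add_cancel, sub_add_cancel] at h5
      exact h5
    · rw [DD_sub, DD_smul, hξ' l hl]
      funext E
      rw [Pi.sub_apply, hχ l hl, Pi.zero_apply, sub_self]
  have h5 : ∀ E, ∃ g, (η - DD p (n + 1) m (glue κ - fun E => (X 0 : RR p (n + 1)) • ξ E)) E
      = (X 0 : RR p (n + 1)) • g := by
    intro E
    refine ev_eq_zero (ev_eq_zero_of_res hp (fun ρ hρ => ?_) E)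
    have h6 : res ρ (η - DD p (n + 1) m (glue κ - fun E => (X 0 : RR p (n + 1)) • ξ E))
        = res ρ η - res ρ (DD p (n + 1) m (glue κ)) := by
      funext E
      simp only [res]
      rw [DD_sub, DD_smul]
      simp only [Pi.sub_apply, smul_eq_mul, map_sub, map_mul, ev_X_zero, zero_mul, sub_zero, res]
    rw [h6, res_DD, res_glue hp κ hρ, hκ4 ρ, sub_self]
  choose η' hη' using h5
  have h6 : Kr p (n + 1) m ((w : ℤ) - (p : ℤ) ^ (n + 1 + m + 1)) d (s + 1)
      (η - DD p (n + 1) m (glue κ - fun E => (X 0 : RR p (n + 1)) • ξ E)) := by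
    refine hη.sub ⟨hκ.1.DD m, fun l hl => ?_⟩
    rw [DD_comm, hκ.2 l hl, DD_zero]
  have h7 := h6.of_smul0 hη'
  rw [add_sub_cancel_right] at h7
  refine ⟨_, η', hκ, h7, fun E => ?_⟩
  rw [← hη' E, Pi.sub_apply]
  abel

/-- many divisions by `v_0` -/
theorem stepB (hp : 2 ≤ p) {n m w : ℕ} {d s : ℤ} {η : Fnl (RR p (n + 1))}
    (hη : Kr p (n + 1) m ((w : ℤ) - (p : ℤ) ^ (n + 1 + m + 1)) d (s + 1) η) (q : ℕ)
    (h1 : ∀ i < q, Vp p (n + 1) m w (d - i - 1) (s - i - 1))
    (h2 : ∀ i < q, ∀ (ρ : ℕ →₀ ℕ) (w' : ℕ) (d' : ℤ), w = p * w' + wT p ρ →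
      d - i = p * d' + dg ρ → Vp p n (m + 1) w' d' (s - i)) :
    ∃ κ η', Kr p (n + 1) m w d s κ ∧
      Kr p (n + 1) m ((w : ℤ) - (p : ℤ) ^ (n + 1 + m + 1)) (d - q) (s - q + 1) η' ∧
      ∀ E, η E = DD p (n + 1) m κ E + (X 0 : RR p (n + 1)) ^ q • η' E := by
  induction q with
  | zero =>
    refine ⟨0, η, Kr.zero, ?_, fun E => ?_⟩
    · simp only [Nat.cast_zero, sub_zero]
      exact hη
    · rw [DD_zero, Pi.zero_apply, pow_zero, one_smul, zero_add]
  | succ q ih =>
    obtain ⟨κ, η', hκ, hη', h⟩ := ih (fun i hi => h1 i (Nat.lt_succ_of_lt hi))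
      (fun i hi => h2 i (Nat.lt_succ_of_lt hi))
    obtain ⟨κ', η'', hκ', hη'', h'⟩ := stepA hp (h1 q (Nat.lt_succ_self q))
      (h2 q (Nat.lt_succ_self q)) hη'
    have h3 := hκ'.smul_pow q
    rw [sub_add_cancel, sub_add_cancel] at h3
    refine ⟨κ + fun E => (X 0 : RR p (n + 1)) ^ q • κ' E, η'', hκ.add h3, ?_, fun E => ?_⟩
    · have h4 : d - ((q + 1 : ℕ) : ℤ) = d - q - 1 := by push_cast; ring
      have h5 : s - ((q + 1 : ℕ) : ℤ) + 1 = s - q := by push_cast; ring
      rw [h4, h5]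
      exact hη''
    · rw [h E, h' E, DD_add, DD_smul, Pi.add_apply, smul_add, smul_smul, pow_succ]
      abel

theorem Sj.step (hp : 2 ≤ p) {n : ℕ} (hn : ∀ (m w : ℕ) (d s : ℤ), Bd p n m w ≤ d → Vp p n m w d s)
    {m : ℕ} (hm : ∀ (w : ℕ) (d s : ℤ), Bd p (n + 1) m w ≤ d → Vp p (n + 1) m w d s)
    (w : ℕ) (d s : ℤ) (hd : Bd p (n + 1) (m + 1) w ≤ d) : Sj p (n + 1) m w d s := by
  intro η hη
  rw [Bd_succ] at hd
  set q := w / p ^ (n + 1 + m + 1) with hq
  obtain ⟨κ, η', hκ, hη', h⟩ := stepB hp hη q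
    (fun i hi => hm w _ _ (by
      have h1 : ((i : ℤ)) + 1 ≤ q := by exact_mod_cast hi
      linarith))
    (fun i hi ρ w' d' hw hd' => hn _ _ _ _ (Bd_descent hp hw (dg_le ρ (by omega)) hd' (by
      have h1 : ((i : ℤ)) + 1 ≤ q := by exact_mod_cast hi
      linarith)))
  obtain ⟨φ, hφ, hφ'⟩ := step2 (p := p) (n := n + 1) m w q
    (by
      rw [hq]
      have := Nat.lt_div_mul_add (a := w) (b := p ^ (n + 1 + m + 1)) (by positivity)
      rw [add_mul, one_mul]
      exact this) q 0 (d - q) (s - q) η' (by omega) (fun E hE => absurd hE (Nat.not_lt_zero _)) hη'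
  rw [sub_add_cancel, sub_add_cancel] at hφ
  refine ⟨κ + φ, hκ.add hφ, ?_⟩
  funext E
  rw [DD_add, Pi.add_apply, hφ', h E]

/-- **(V)**, weight by weight -/
theorem vp_all (hp : 2 ≤ p) (n : ℕ) :
    ∀ (m w : ℕ) (d s : ℤ), Bd p n m w ≤ d → Vp p n m w d s := by
  induction n with
  | zero =>
    intro m
    induction m with
    | zero => intro w d s _; exact Vp.zero
    | succ m ih =>
      intro w d s hd
      refine Vp.succ (ih w d s ?_) (Sj.base hp hd)
      rw [Bd_succ] at hd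
      have h1 : (0 : ℤ) ≤ (w / p ^ (0 + m + 1) : ℕ) := Nat.cast_nonneg _
      linarith
  | succ n hn =>
    intro m
    induction m with
    | zero => intro w d s _; exact Vp.zero
    | succ m ih =>
      intro w d s hd
      refine Vp.succ (ih w d s ?_) (Sj.step hp hn ih w d s hd)
      rw [Bd_succ] at hd
      have h1 : (0 : ℤ) ≤ (w / p ^ (n + 1 + m + 1) : ℕ) := Nat.cast_nonneg _
      linarith

end

end Vale.Agent.P221.T
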