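import Vale.Agent.P221.T.Alg
import Mathlib.Tactic.Linarith
import Mathlib.Tactic.Ring
import Mathlib.Tactic.Abel

/-!
# P221, part T: `SpecVan` from `SpecV`
-/

open MvPolynomial

namespace Vale.Agent.P221.T

section

variable (p n : ℕ) {N N' : Type} [AddCommGroup N] [Module (RR p n) N] [AddCommGroup N']
  [Module (RR p n) N']

theorem dT_add (E E' : ℕ →₀ ℕ) : dT p (E + E') = dT p E + dT p E' := by
  unfold dT
  exact map_add _ _ _

theorem dT_single (j m : ℕ) : dT p (Finsupp.single j m) = m * sV p (j + 1) := by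
  unfold dT
  rw [Finsupp.weight_single, nsmul_eq_mul]

theorem shift_deg (a l : ℕ) (ha : a ≤ n) :
    dT p (Finsupp.single (n + l - a) (p ^ a)) + sV p a = dd p n l := by
  rw [dT_single]
  unfold dd sV
  have h : n + 1 + l = a + (n + l - a + 1) := by omega
  rw [h, pow_add]
  push_cast
  ring

theorem DD_sub (l : ℕ) (ζ ζ' : Fnl N) : DD p n l (ζ - ζ') = DD p n l ζ - DD p n l ζ' := by
  funext E
  simp only [DD, Pi.sub_apply, smul_sub, Finset.sum_sub_distrib]

theorem DD_add (l : ℕ) (ζ ζ' : Fnl N) : DD p n l (ζ + ζ') = DD p n l ζ + DD p n l ζ' := by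
  funext E
  simp only [DD, Pi.add_apply, smul_add, Finset.sum_add_distrib]

theorem DD_zero (l : ℕ) : DD p n l (0 : Fnl N) = 0 := by
  funext E
  simp only [DD, Pi.zero_apply, smul_zero, Finset.sum_const_zero]

theorem DD_comm (i l : ℕ) (ζ : Fnl N) : DD p n i (DD p n l ζ) = DD p n l (DD p n i ζ) := by
  funext E
  simp only [DD, Finset.smul_sum]
  rw [Finset.sum_comm]
  refine Finset.sum_congr rfl fun b _ => Finset.sum_congr rfl fun a _ => ?_
  rw [smul_comm, add_right_comm]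

/-- a linear map applied to the values -/
theorem DD_map (f : N' →ₗ[RR p n] N) (l : ℕ) (ζ : Fnl N') :
    DD p n l (fun E => f (ζ E)) = fun E => f (DD p n l ζ E) := by
  funext E
  simp only [DD, map_sum, map_smul]

variable {p n}

theorem InF.DD {gr : ℤ → ℤ → AddSubgroup N} (hgr : IsGr p n gr) {k s : ℤ} {ζ : Fnl N}
    (h : InF p gr k s ζ) (l : ℕ) : InF p gr (k + dd p n l) (s + 1) (DD p n l ζ) := by
  intro E
  refine AddSubgroup.sum_mem _ fun a _ => ?_
  have h1 := hgr a _ _ _ (h (E + Finsupp.single (n + l - a) (p ^ (a : ℕ))))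
  have h2 := shift_deg p n (a : ℕ) l (Nat.lt_succ_iff.1 a.2)
  rw [dT_add] at h1
  have h3 : k + (dT p E + dT p (Finsupp.single (n + l - a) (p ^ (a : ℕ)))) + sV p (a : ℕ)
      = k + dd p n l + dT p E := by rw [← h2]; ring
  rwa [h3] at h1

theorem InF.sub {gr : ℤ → ℤ → AddSubgroup N} {k s : ℤ} {ζ ζ' : Fnl N}
    (h : InF p gr k s ζ) (h' : InF p gr k s ζ') : InF p gr k s (ζ - ζ') :=
  fun E => (gr _ _).sub_mem (h E) (h' E)

theorem InF.add {gr : ℤ → ℤ → AddSubgroup N} {k s : ℤ} {ζ ζ' : Fnl N}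
    (h : InF p gr k s ζ) (h' : InF p gr k s ζ') : InF p gr k s (ζ + ζ') :=
  fun E => (gr _ _).add_mem (h E) (h' E)

theorem InF.zero {gr : ℤ → ℤ → AddSubgroup N} {k s : ℤ} : InF p gr k s (0 : Fnl N) :=
  fun _ => (gr _ _).zero_mem

theorem sV_nonneg (hp : 1 ≤ p) (a : ℕ) : 0 ≤ sV p a := by
  unfold sV
  have : (1 : ℤ) ≤ (p : ℤ) ^ a := one_le_pow₀ (by exact_mod_cast hp)
  linarith

theorem dd_nonneg (hp : 1 ≤ p) (l : ℕ) : 0 ≤ dd p n l := sV_nonneg hp _

/-- the free module is a graded module -/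
theorem isGr_R : IsGr p n (grR p n) := by
  intro a k s y hy
  refine ⟨?_, ?_⟩
  · have h := (isWeightedHomogeneous_X (ZMod p) (fun a : Fin (n + 1) => sV p a) a).mul
      ((mem_weightedHomogeneousSubmodule _ _ _ _).1 hy.1)
    have : (X a : RR p n) • y ∈ weightedHomogeneousSubmodule (ZMod p)
        (fun a : Fin (n + 1) => sV p a) (k + sV p a) := by
      rw [mem_weightedHomogeneousSubmodule, smul_eq_mul, add_comm k]
      exact h
    exact this
  · have h := (isWeightedHomogeneous_X (ZMod p) (fun _ : Fin (n + 1) => (1 : ℤ)) a).mul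
      ((mem_weightedHomogeneousSubmodule _ _ _ _).1 hy.2)
    have : (X a : RR p n) • y ∈ weightedHomogeneousSubmodule (ZMod p)
        (fun _ : Fin (n + 1) => (1 : ℤ)) (s + 1) := by
      rw [mem_weightedHomogeneousSubmodule, smul_eq_mul, add_comm s]
      exact h
    exact this

theorem mem_grFree {r : ℕ} {e a : Fin r → ℤ} {k s : ℤ} {f : Fin r → RR p n} :
    f ∈ grFree p n e a k s ↔ ∀ i, f i ∈ grR p n (k - e i) (s - a i) := Iff.rfl

theorem isGr_free {r : ℕ} (e a : Fin r → ℤ) : IsGr p n (grFree p n e a) := by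
  intro b k s y hy i
  have h := isGr_R b _ _ _ (hy i)
  have h1 : k - e i + sV p b = k + sV p b - e i := by ring
  have h2 : s - a i + 1 = s + 1 - a i := by ring
  rw [h1, h2] at h
  exact h

theorem mem_kerGr {gr' : ℤ → ℤ → AddSubgroup N'} {f : N' →ₗ[RR p n] N} {k s : ℤ} {x : N'} :
    x ∈ kerGr gr' f k s ↔ x ∈ gr' k s ∧ f x = 0 := Iff.rfl

theorem isGr_ker {gr' : ℤ → ℤ → AddSubgroup N'} (h : IsGr p n gr') (f : N' →ₗ[RR p n] N) :
    IsGr p n (kerGr gr' f) := by
  intro b k s y hy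
  rw [mem_kerGr] at hy ⊢
  exact ⟨h b k s y hy.1, by rw [map_smul, hy.2, smul_zero]⟩

/-- vanishing for free modules -/
theorem van_free (J : Set ℕ)
    (hV : ∀ d : ℤ, 4 - 2 * (p : ℤ) ^ (n + 1) ≤ d → Van p n J (grR p n) d) {d : ℤ} {r : ℕ}
    (e a : Fin r → ℤ) (h : ∀ j, 4 - 2 * (p : ℤ) ^ (n + 1) ≤ d - e j) :
    Van p n J (grFree p n e a) d := by
  intro k hk s ψ hψ hc
  have key : ∀ j : Fin r, ∃ φ : Fnl (RR p n), InF p (grR p n) (k - e j) (s - a j) φ ∧
      ∀ l ∈ J, DD p n l φ = fun E => ψ l E j := by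
    intro j
    refine hV (d - e j) (h j) (k - e j) (by linarith) (s - a j) (fun l E => ψ l E j) ?_ ?_
    · intro l hl E
      have h1 := hψ l hl E j
      have h2 : k + dd p n l + dT p E - e j = k - e j + dd p n l + dT p E := by ring
      have h3 : s + 1 - a j = s - a j + 1 := by ring
      rw [h2, h3] at h1
      exact h1
    · intro i hi l hl
      have h1 := hc i hi l hl
      have h2 := DD_map p n (LinearMap.proj (R := RR p n) (φ := fun _ : Fin r => RR p n) j) i (ψ l)
      have h3 := DD_map p n (LinearMap.proj (R := RR p n) (φ := fun _ : Fin r => RR p n) j) l (ψ i)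
      simp only [LinearMap.proj_apply] at h2 h3
      rw [h2, h3, h1]
  choose φ hφ hφ' using key
  refine ⟨fun E j => φ j E, ?_, ?_⟩
  · intro E j
    have h1 := hφ j E
    have h2 : k - e j + dT p E = k + dT p E - e j := by ring
    rw [h2] at h1
    exact h1
  · intro l hl
    funext E j
    have h1 := DD_map p n (LinearMap.proj (R := RR p n) (φ := fun _ : Fin r => RR p n) j) l
      (fun E j => φ j E)
    simp only [LinearMap.proj_apply] at h1
    have h2 := congrFun h1 E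
    rw [← h2]
    exact congrFun (hφ' j l hl) E

/-- the induction step -/
theorem van_step (hp : 1 ≤ p) {d : ℤ} {gr' : ℤ → ℤ → AddSubgroup N'} {gr : ℤ → ℤ → AddSubgroup N}
    (hg' : IsGr p n gr') {f : N' →ₗ[RR p n] N} (hf : IsSurj gr' gr f)
    (hF : ∀ m : ℕ, Van p n {l | l < m} gr' d) (hK : ∀ m : ℕ, Van p n {l | l < m} (kerGr gr' f) d)
    (m : ℕ) : Van p n {l | l < m} gr d := by
  induction m with
  | zero =>
    intro k _ s ψ _ _
    exact ⟨0, InF.zero, fun l hl => absurd hl (Nat.not_lt_zero l)⟩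
  | succ m ih =>
    intro k hk s ψ hψ hc
    obtain ⟨φ₀, hφ₀, hφ₀'⟩ := ih k hk s ψ (fun l hl => hψ l (Nat.lt_succ_of_lt hl))
      (fun i hi l hl => hc i (Nat.lt_succ_of_lt hi) l (Nat.lt_succ_of_lt hl))
    -- lift `φ₀` and `ψ m` to `N'`
    have lift : ∀ (k' s' : ℤ) (ζ : Fnl N), InF p gr k' s' ζ →
        ∃ ζ' : Fnl N', InF p gr' k' s' ζ' ∧ ∀ E, f (ζ' E) = ζ E := by
      intro k' s' ζ hζ
      choose ζ' h1 h2 using fun E => hf.surj _ _ _ (hζ E)
      exact ⟨ζ', h1, h2⟩
    obtain ⟨φ₁, hφ₁, hφ₁'⟩ := lift _ _ _ hφ₀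
    obtain ⟨ψ₁, hψ₁, hψ₁'⟩ := lift _ _ _ (hψ m (Nat.lt_succ_self m))
    set χ : Fnl N' := ψ₁ - DD p n m φ₁ with hχ
    have hχ1 : InF p gr' (k + dd p n m) (s + 1) χ := hψ₁.sub (InF.DD hg' hφ₁ m)
    have hfD : ∀ (l : ℕ) (ζ : Fnl N') (ζ' : Fnl N), (∀ E, f (ζ E) = ζ' E) →
        ∀ E, f (DD p n l ζ E) = DD p n l ζ' E := by
      intro l ζ ζ' h E
      have h1 := congrFun (DD_map p n f l ζ) E
      rw [← h1]
      have h2 : (fun E => f (ζ E)) = ζ' := funext h
      rw [h2]
    have hfχ : ∀ E, f (χ E) = ψ m E - DD p n m φ₀ E := by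
      intro E
      rw [hχ, Pi.sub_apply, map_sub, hψ₁', hfD m φ₁ φ₀ hφ₁']
    have hχ2 : ∀ l < m, InF p (kerGr gr' f) (k + dd p n m + dd p n l) (s + 1 + 1) (DD p n l χ) := by
      intro l hl E
      rw [mem_kerGr]
      refine ⟨InF.DD hg' hχ1 l E, ?_⟩
      rw [hfD l χ (ψ m - DD p n m φ₀) (fun E => by rw [hfχ, Pi.sub_apply])]
      rw [DD_sub, Pi.sub_apply, hc l (Nat.lt_succ_of_lt hl) m (Nat.lt_succ_self m), DD_comm,
        hφ₀' l hl, sub_self]
    obtain ⟨κ, hκ, hκ'⟩ := hK m (k + dd p n m) (by have := dd_nonneg (n := n) hp m; linarith)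
      (s + 1) (fun l => DD p n l χ) (fun l hl => hχ2 l hl) (fun i _ l _ => DD_comm p n i l χ)
    -- now `χ - κ` is killed by the earlier operators
    have hχκ : InF p gr' (k + dd p n m) (s + 1) (χ - κ) :=
      hχ1.sub (fun E => (mem_kerGr.1 (hκ E)).1)
    have hkill : ∀ l < m, DD p n l (χ - κ) = 0 := by
      intro l hl
      rw [DD_sub, hκ' l hl, sub_self]
    obtain ⟨φ₂, hφ₂, hφ₂'⟩ := hF (m + 1) k hk s (fun l => if l = m then χ - κ else 0)
      (by
        intro l hl
        by_cases h : l = m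
        · subst h
          rw [if_pos rfl]
          exact hχκ
        · rw [if_neg h]
          exact InF.zero)
      (by
        intro i hi l hl
        by_cases h : l = m
        · by_cases h' : i = m
          · rw [h, h']
          · rw [if_pos h, if_neg h', DD_zero]
            exact hkill i (lt_of_le_of_ne (Nat.lt_succ_iff.1 hi) h')
        · by_cases h' : i = m
          · rw [if_neg h, if_pos h', DD_zero]
            exact (hkill l (lt_of_le_of_ne (Nat.lt_succ_iff.1 hl) h)).symm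
          · rw [if_neg h, if_neg h', DD_zero, DD_zero])
    refine ⟨φ₀ + fun E => f (φ₂ E), hφ₀.add (fun E => hf.map _ _ _ (hφ₂ E)), ?_⟩
    intro l hl
    rw [DD_add, DD_map]
    have h2 := hφ₂' l hl
    by_cases h : l = m
    · subst h
      rw [if_pos rfl] at h2
      funext E
      rw [Pi.add_apply, h2, Pi.sub_apply, map_sub, hfχ, (mem_kerGr.1 (hκ E)).2]
      abel
    · rw [if_neg h] at h2
      have hlm : l < m := lt_of_le_of_ne (Nat.lt_succ_iff.1 hl) h
      funext E
      rw [Pi.add_apply, h2, Pi.zero_apply, map_zero, add_zero, hφ₀' l hlm]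

end

section

variable {p n : ℕ} {N : Type} [AddCommGroup N] [Module (RR p n) N]

/-- the weight of a `T`-monomial: `t_{j+1}` has weight `p^(j+1)` -/
noncomputable def wT (p : ℕ) (E : ℕ →₀ ℕ) : ℕ := Finsupp.weight (fun j => p ^ (j + 1)) E

theorem wT_shift (a l : ℕ) (ha : a ≤ n) (E : ℕ →₀ ℕ) :
    wT p (E + Finsupp.single (n + l - a) (p ^ a)) = wT p E + p ^ (n + l + 1) := by
  unfold wT
  rw [map_add, Finsupp.weight_single, smul_eq_mul, ← pow_add]
  congr 2
  omega

/-- from the finite sets `{l < m}` to all relations, weight by weight -/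
theorem van_univ (hp : 2 ≤ p) {gr : ℤ → ℤ → AddSubgroup N} {d : ℤ}
    (h : ∀ m : ℕ, Van p n {l | l < m} gr d) : Van p n Set.univ gr d := by
  intro k hk s ψ hψ hc
  classical
  have hDD : ∀ (w i l : ℕ) (E : ℕ →₀ ℕ),
      DD p n i (fun E => if wT p E + p ^ (n + l + 1) = w then ψ l E else 0) E
        = if wT p E + p ^ (n + i + 1) + p ^ (n + l + 1) = w then DD p n i (ψ l) E else 0 := by
    intro w i l E
    simp only [DD]
    split_ifs with hw
    · refine Finset.sum_congr rfl fun a _ => ?_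
      rw [wT_shift (a : ℕ) i (Nat.lt_succ_iff.1 a.2), if_pos hw]
    · refine Finset.sum_eq_zero fun a _ => ?_
      rw [wT_shift (a : ℕ) i (Nat.lt_succ_iff.1 a.2), if_neg hw, smul_zero]
  have key : ∀ w : ℕ, ∃ φ : Fnl N, InF p gr k s φ ∧ ∀ l < w, DD p n l φ =
      fun E => if wT p E + p ^ (n + l + 1) = w then ψ l E else 0 := by
    intro w
    refine h w k hk s (fun l E => if wT p E + p ^ (n + l + 1) = w then ψ l E else 0) ?_ ?_
    · intro l _ E
      dsimp only
      split_ifs with hw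
      · exact hψ l (Set.mem_univ l) E
      · exact (gr _ _).zero_mem
    · intro i _ l _
      funext E
      rw [hDD, hDD, hc i (Set.mem_univ i) l (Set.mem_univ l)]
      have h1 : wT p E + p ^ (n + i + 1) + p ^ (n + l + 1)
          = wT p E + p ^ (n + l + 1) + p ^ (n + i + 1) := by ring
      rw [h1]
  choose φ hφ hφ' using key
  refine ⟨fun E => φ (wT p E) E, fun E => hφ _ E, ?_⟩
  intro l _
  funext E
  have hl : l < wT p E + p ^ (n + l + 1) := by
    have h1 : n + l + 1 < p ^ (n + l + 1) := Nat.lt_pow_self hp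
    omega
  have h1 := congrFun (hφ' (wT p E + p ^ (n + l + 1)) l hl) E
  rw [if_pos rfl] at h1
  rw [← h1]
  simp only [DD]
  refine Finset.sum_congr rfl fun a _ => ?_
  rw [wT_shift (a : ℕ) l (Nat.lt_succ_iff.1 a.2)]

/-- the window is narrow -/
theorem WW_le (hp : 2 ≤ p) (n : ℕ) : WW p n ≤ 2 * (p : ℤ) ^ (n + 1) - 4 := by
  have hp' : (2 : ℤ) ≤ p := by exact_mod_cast hp
  induction n with
  | zero =>
    simp only [WW, sV]
    simp
    linarith
  | succ n ih =>
    have h1 : WW p (n + 1) = WW p n + sV p (n + 1) := by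
      unfold WW
      rw [Fin.sum_univ_castSucc]
      simp
    have h2 : (1 : ℤ) ≤ (p : ℤ) ^ (n + 1) := one_le_pow₀ (by linarith)
    rw [h1]
    unfold sV
    have h3 : (p : ℤ) ^ (n + 1 + 1) = p ^ (n + 1) * p := pow_succ _ _
    have h4 : (p : ℤ) ^ (n + 1) * 2 ≤ p ^ (n + 1) * p :=
      mul_le_mul_of_nonneg_left hp' (by linarith)
    rw [h3]
    linarith

theorem van_of_QQ (hp : 2 ≤ p)
    (hV : ∀ (m : ℕ) (d : ℤ), 4 - 2 * (p : ℤ) ^ (n + 1) ≤ d → Van p n {l | l < m} (grR p n) d)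
    (d : ℤ) (i : ℕ) :
    ∀ (N : Type) [AddCommGroup N] [Module (RR p n) N] (gr : ℤ → ℤ → AddSubgroup N),
      QQ p n d i N gr → ∀ m : ℕ, Van p n {l | l < m} gr d := by
  induction i with
  | zero =>
    intro N _ _ gr hQ m k _ s ψ hψ _
    refine ⟨0, InF.zero, fun l hl => ?_⟩
    funext E
    have h1 := hψ l hl E
    rw [hQ] at h1
    rw [DD_zero, Pi.zero_apply]
    exact (AddSubgroup.mem_bot.1 h1).symm
  | succ i ih =>
    intro N _ _ gr hQ m
    obtain ⟨r, e, a, f, he, hf, hK⟩ := hQ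
    refine van_step (by omega) (isGr_free e a) hf (fun m => van_free _ (hV m) e a fun j => ?_)
      (fun m => ih _ _ hK m) m
    have h1 := WW_le hp n
    have h2 := (he j).2
    linarith

/-- **`SpecVan`** from `SpecV` (without hypotheses: `specVan_all` in `V.lean`) -/
theorem specVan (hp : 2 ≤ p) (hV : SpecV p n) : SpecVan p n := by
  intro d i N _ _ gr _ hQ
  have h := van_of_QQ hp (fun m d hd => hV {l | l < m} d hd) d i N gr hQ
  exact ⟨h, van_univ hp h⟩

end

end Vale.Agent.P221.T
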